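import Vale.Agent.N095F.Top

open Vale.Agent.P095S Vale.Agent.N095F

universe u

/-- Equivariant `Z`-stability beyond simple nuclear algebras. `A` is separable, `B = A ⊗ Z`,
`G` is countable and `β = α ⊗ id`.
(1) Passage from subgroups of finite index and from finitely generated subgroups, for every `A`.
(2) Locally finite groups, for every `Z`-stable `A`.
(3) The same modulo inner automorphisms. -/
theorem Vale.Agent.Results.P095.A0FiniteGroups.result (Z A B : Type u) [CStarAlgebra Z]
    [NonUnitalCStarAlgebra A] [NonUnitalCStarAlgebra B] (T : Bil A Z B) (G : Type) [Group G]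
    (α : Act A G) (β : Act B G) (hZ : IsJS Z) (hT : IsSpatial T) (hβ : IsTensorId T α β)
    (hA : TopologicalSpace.SeparableSpace A) (hG : Countable G) :
    ((LocVirt fun H => CocycleConj (res α H) (res β H)) → CocycleConj α β) ∧
    (Iso A B → (∀ S : Finset G, Finite (Subgroup.closure (S : Set G))) → CocycleConj α β) ∧
    (Iso A B → LocVirt (InnerOn α) → CocycleConj α β) :=
  ⟨virt_conj hZ hT hβ,
    fun hA h => conj_of_local hZ hT hβ (inner_local hZ hT hβ hA (locVirt_of_locFin h)),
    fun hA h => conj_of_local hZ hT hβ (inner_local hZ hT hβ hA h)⟩
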